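import Vale.Agent.P203.Main

/-! The `K(π,1)` conjecture for all Artin groups. -/

namespace Vale.Agent.Results.P203.KPiOne
open Vale.Agent.P203

/-- The Artin group of a Coxeter matrix: generators `σ_s`, and for all `s, t` the two alternating
words of length `m_st` are equal. Mathlib encodes `m_st = ∞` as `0`, which gives a trivial relator. -/
abbrev ArtinGroup {S : Type} (M : CoxeterMatrix S) : Type :=
  PresentedGroup {r : FreeGroup S | ∃ s t,
    r = ((CoxeterSystem.alternatingWord s t (M s t)).map FreeGroup.of).prod *
      (((CoxeterSystem.alternatingWord t s (M s t)).map FreeGroup.of).prod)⁻¹}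

theorem result {S : Type} [Fintype S] (M : CoxeterMatrix S) :
    PathConnectedSpace (Salvetti M) ∧ ∀ x : Salvetti M,
      Nonempty (FundamentalGroup (Salvetti M) x ≃* ArtinGroup M) ∧
        ∀ n : ℕ, 2 ≤ n → Subsingleton (HomotopyGroup.Pi n (Salvetti M) x) := by
  classical
  exact salvetti_main M

end Vale.Agent.Results.P203.KPiOne
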